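import Vale.Agent.P204.Defs

open Matrix

namespace Vale.Agent.P204

abbrev M4 : Type := Matrix (Fin 4) (Fin 4) ℝ

/-- The form `(e J) wedge e`. -/
def hf (J : M4) (e : Fin 4 → ℝ) : M4 := fun i j => (e ᵥ* J) i * e j - e i * (e ᵥ* J) j

theorem val_hf (J : M4) (e u v : Fin 4 → ℝ) :
    val (hf J e) u v = (e ⬝ᵥ (J *ᵥ u)) * (e ⬝ᵥ v) - (e ⬝ᵥ u) * (e ⬝ᵥ (J *ᵥ v)) := by
  have h1 : hf J e = vecMulVec (e ᵥ* J) e - vecMulVec e (e ᵥ* J) := by
    ext i j; simp [hf, vecMulVec_apply]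
  have h2 : ∀ a c : Fin 4 → ℝ, u ⬝ᵥ (vecMulVec a c *ᵥ v) = (a ⬝ᵥ u) * (c ⬝ᵥ v) := by
    intro a c
    simp [vecMulVec, mulVec, dotProduct, Fin.sum_univ_four]
    ring
  rw [val, h1, sub_mulVec, dotProduct_sub, h2, h2, dotProduct_mulVec, dotProduct_mulVec]

theorem JJ {J : M4} (hJ : J * J = -1) (v : Fin 4 → ℝ) : J *ᵥ (J *ᵥ v) = -v := by
  rw [mulVec_mulVec, hJ, neg_mulVec, one_mulVec]

theorem hf_inv {J : M4} (hJ : J * J = -1) (e u v : Fin 4 → ℝ) :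
    val (hf J e) (J *ᵥ u) (J *ᵥ v) = val (hf J e) u v := by
  rw [val_hf, val_hf, JJ hJ, JJ hJ, dotProduct_neg, dotProduct_neg]
  ring

theorem hf_pos {J : M4} (hJ : J * J = -1) (e v : Fin 4 → ℝ) :
    val (hf J e) v (J *ᵥ v) = (e ⬝ᵥ (J *ᵥ v)) ^ 2 + (e ⬝ᵥ v) ^ 2 := by
  rw [val_hf, JJ hJ, dotProduct_neg]
  ring

/-- `p = (J b)_0`. -/
def pp (J : M4) (b : Fin 4 → ℝ) : ℝ := (J *ᵥ b) 0

/-- The covector annihilating `b` and `J b`. -/
def eta (J : M4) (b : Fin 4 → ℝ) (k : Fin 3) : Fin 4 → ℝ := fun l =>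
  pp J b * (if l = k.succ then 1 else 0) - b k.succ * J 0 l -
    (J *ᵥ b) k.succ * (if l = 0 then 1 else 0)

theorem eta_apply (J : M4) (b : Fin 4 → ℝ) (k : Fin 3) (v : Fin 4 → ℝ) :
    eta J b k ⬝ᵥ v = pp J b * v k.succ - b k.succ * (J *ᵥ v) 0 - (J *ᵥ b) k.succ * v 0 := by
  have h : (J *ᵥ v) 0 = ∑ l, J 0 l * v l := rfl
  have h2 : pp J b * v k.succ = ∑ l, (pp J b * (if l = k.succ then 1 else 0)) * v l := by
    simp [Finset.sum_ite_eq']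
  have h3 : (J *ᵥ b) k.succ * v 0 = ∑ l, ((J *ᵥ b) k.succ * (if l = 0 then 1 else 0)) * v l := by
    simp [Finset.sum_ite_eq']
  rw [h, h2, h3, dotProduct, Finset.mul_sum, ← Finset.sum_sub_distrib, ← Finset.sum_sub_distrib]
  refine Finset.sum_congr rfl fun l _ => ?_
  simp only [eta]
  ring

theorem eta_b {J : M4} {b : Fin 4 → ℝ} (hb : b 0 = 0) (k : Fin 3) :
    eta J b k ⬝ᵥ b = 0 := by
  rw [eta_apply, hb, pp]; ring

theorem eta_Jb {J : M4} (hJ : J * J = -1) {b : Fin 4 → ℝ} (hb : b 0 = 0) (k : Fin 3) :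
    eta J b k ⬝ᵥ (J *ᵥ b) = 0 := by
  rw [eta_apply, JJ hJ, pp]; simp [hb]; ring

/-- The sum of the three forms. -/
def MM (J : M4) (b : Fin 4 → ℝ) : M4 := fun i j => ∑ k, hf J (eta J b k) i j

theorem val_sum (A : Fin 3 → M4) (u v : Fin 4 → ℝ) :
    val (fun i j => ∑ k, A k i j) u v = ∑ k, val (A k) u v := by
  simp only [val, dotProduct, mulVec, Fin.sum_univ_four, Fin.sum_univ_three]
  ring

/-- The scalar. -/
def kap (J : M4) (b : Fin 4 → ℝ) : ℝ := MM J b 1 2 * b 3 + MM J b 2 3 * b 1 + MM J b 3 1 * b 2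

/-- The cross product matrix of `b`. -/
def cr (b : Fin 4 → ℝ) : M4 :=
  !![0, 0, 0, 0; 0, 0, b 3, - b 2; 0, - b 3, 0, b 1; 0, b 2, - b 1, 0]

theorem hf_cr {J : M4} {b e : Fin 4 → ℝ} (hb : b 0 = 0) (h1 : e ⬝ᵥ b = 0)
    (h2 : e ⬝ᵥ (J *ᵥ b) = 0) (i j : Fin 3) :
    (b 1 ^ 2 + b 2 ^ 2 + b 3 ^ 2) * hf J e i.succ j.succ =
      (hf J e 1 2 * b 3 + hf J e 2 3 * b 1 + hf J e 3 1 * b 2) * cr b i.succ j.succ := by
  rw [dotProduct_mulVec] at h2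
  simp only [dotProduct, Fin.sum_univ_four, hb] at h1 h2
  simp only [hf]
  generalize e ᵥ* J = u at *
  have e1 : (0 : Fin 3).succ = (1 : Fin 4) := rfl
  have e2 : (1 : Fin 3).succ = (2 : Fin 4) := rfl
  have e3 : (2 : Fin 3).succ = (3 : Fin 4) := rfl
  have c11 : cr b 1 1 = 0 := rfl
  have c12 : cr b 1 2 = b 3 := rfl
  have c13 : cr b 1 3 = -b 2 := rfl
  have c21 : cr b 2 1 = -b 3 := rfl
  have c22 : cr b 2 2 = 0 := rfl
  have c23 : cr b 2 3 = b 1 := rfl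
  have c31 : cr b 3 1 = b 2 := rfl
  have c32 : cr b 3 2 = -b 1 := rfl
  have c33 : cr b 3 3 = 0 := rfl
  have k3 : (b 1 ^ 2 + b 2 ^ 2 + b 3 ^ 2) * (u 1 * e 2 - e 1 * u 2) =
      (((u 1 * e 2 - e 1 * u 2) * b 3 + (u 2 * e 3 - e 2 * u 3) * b 1 +
        (u 3 * e 1 - e 3 * u 1) * b 2)) * b 3 := by
    linear_combination (b 1 * e 2 - b 2 * e 1) * h2 - (b 1 * u 2 - b 2 * u 1) * h1
  have k1 : (b 1 ^ 2 + b 2 ^ 2 + b 3 ^ 2) * (u 2 * e 3 - e 2 * u 3) =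
      (((u 1 * e 2 - e 1 * u 2) * b 3 + (u 2 * e 3 - e 2 * u 3) * b 1 +
        (u 3 * e 1 - e 3 * u 1) * b 2)) * b 1 := by
    linear_combination (b 2 * e 3 - b 3 * e 2) * h2 - (b 2 * u 3 - b 3 * u 2) * h1
  have k2 : (b 1 ^ 2 + b 2 ^ 2 + b 3 ^ 2) * (u 3 * e 1 - e 3 * u 1) =
      (((u 1 * e 2 - e 1 * u 2) * b 3 + (u 2 * e 3 - e 2 * u 3) * b 1 +
        (u 3 * e 1 - e 3 * u 1) * b 2)) * b 2 := by
    linear_combination (b 3 * e 1 - b 1 * e 3) * h2 - (b 3 * u 1 - b 1 * u 3) * h1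
  fin_cases i <;> fin_cases j
  · show _ * (u 1 * e 1 - e 1 * u 1) = _ * cr b 1 1
    rw [c11]; ring
  · show _ * (u 1 * e 2 - e 1 * u 2) = _ * cr b 1 2
    rw [c12]; exact k3
  · show _ * (u 1 * e 3 - e 1 * u 3) = _ * cr b 1 3
    rw [c13]; linear_combination -k2
  · show _ * (u 2 * e 1 - e 2 * u 1) = _ * cr b 2 1
    rw [c21]; linear_combination -k3
  · show _ * (u 2 * e 2 - e 2 * u 2) = _ * cr b 2 2
    rw [c22]; ring
  · show _ * (u 2 * e 3 - e 2 * u 3) = _ * cr b 2 3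
    rw [c23]; exact k1
  · show _ * (u 3 * e 1 - e 3 * u 1) = _ * cr b 3 1
    rw [c31]; exact k2
  · show _ * (u 3 * e 2 - e 3 * u 2) = _ * cr b 3 2
    rw [c32]; linear_combination -k1
  · show _ * (u 3 * e 3 - e 3 * u 3) = _ * cr b 3 3
    rw [c33]; ring

theorem MM_cr {J : M4} (hJ : J * J = -1) {b : Fin 4 → ℝ} (hb : b 0 = 0) (i j : Fin 3) :
    (b 1 ^ 2 + b 2 ^ 2 + b 3 ^ 2) * MM J b i.succ j.succ = kap J b * cr b i.succ j.succ := by
  have h := fun k : Fin 3 => hf_cr (J := J) hb (eta_b hb k) (eta_Jb hJ hb k) i j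
  simp only [MM, kap, Finset.mul_sum, Finset.sum_mul, ← Finset.sum_add_distrib]
  refine Finset.sum_congr rfl fun k _ => ?_
  rw [h k]

theorem val_MM (J : M4) (b u v : Fin 4 → ℝ) :
    val (MM J b) u v = ∑ k, val (hf J (eta J b k)) u v :=
  val_sum (fun k => hf J (eta J b k)) u v

/-- A nonzero complex direction inside the fibre. -/
theorem exists_w (J : M4) : ∃ v : Fin 4 → ℝ, v ≠ 0 ∧ v 0 = 0 ∧ (J *ᵥ v) 0 = 0 := by
  by_cases h : J 0 1 = 0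
  · refine ⟨![0, 1, 0, 0], fun h0 => ?_, rfl, ?_⟩
    · have := congrFun h0 1
      simp at this
    · simp [mulVec, dotProduct, Fin.sum_univ_four, h]
  · refine ⟨![0, J 0 2, - J 0 1, 0], fun h0 => ?_, rfl, ?_⟩
    · have := congrFun h0 2
      simp at this
      exact h this
    · simp [mulVec, dotProduct, Fin.sum_univ_four]
      ring

/-- The value on vectors of the fibre of a form whose fibre block is `c` times `cr b`. -/
theorem val_fib {A : M4} {b : Fin 4 → ℝ} {c : ℝ} (hA : ∀ i j : Fin 3, A i.succ j.succ = c * cr b i.succ j.succ)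
    {u v : Fin 4 → ℝ} (hu : u 0 = 0) (hv : v 0 = 0) : val A u v = c * val (cr b) u v := by
  simp only [val, dotProduct, mulVec, Fin.sum_univ_succ, hu, hv, hA]
  simp
  ring

theorem kap_ne {J : M4} (hJ : J * J = -1) {b : Fin 4 → ℝ} (hb : b 0 = 0) (hp : pp J b ≠ 0) :
    kap J b ≠ 0 := by
  intro h0
  obtain ⟨v, hv, hv0, hJv⟩ := exists_w J
  have hB : b 1 ^ 2 + b 2 ^ 2 + b 3 ^ 2 ≠ 0 := by
    intro h
    apply hp
    have h1 : b 1 = 0 := by nlinarith [sq_nonneg (b 1), sq_nonneg (b 2), sq_nonneg (b 3)]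
    have h2 : b 2 = 0 := by nlinarith [sq_nonneg (b 1), sq_nonneg (b 2), sq_nonneg (b 3)]
    have h3 : b 3 = 0 := by nlinarith [sq_nonneg (b 1), sq_nonneg (b 2), sq_nonneg (b 3)]
    simp [pp, mulVec, dotProduct, Fin.sum_univ_four, hb, h1, h2, h3]
  have hM : ∀ i j : Fin 3, MM J b i.succ j.succ = 0 * cr b i.succ j.succ := by
    intro i j
    have := MM_cr hJ hb i j
    rw [h0, zero_mul] at this
    rw [zero_mul]
    exact (mul_eq_zero.1 this).resolve_left hB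
  have h1 := val_fib hM hv0 hJv
  rw [zero_mul, val_MM] at h1
  simp only [hf_pos hJ] at h1
  have h2 : ∀ k : Fin 3, v k.succ = 0 := by
    intro k
    have h3 := (Finset.sum_eq_zero_iff_of_nonneg (fun k _ => by positivity)).1 h1 k
      (Finset.mem_univ k)
    have h4 : eta J b k ⬝ᵥ v = 0 := by nlinarith [sq_nonneg (eta J b k ⬝ᵥ (J *ᵥ v)), sq_nonneg (eta J b k ⬝ᵥ v)]
    rw [eta_apply, hJv, hv0] at h4
    simpa [hp] using h4
  apply hv
  ext k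
  refine Fin.cases hv0 h2 k

/-- The compatible form. -/
noncomputable def Om (J : M4) (b : Fin 4 → ℝ) (s : ℝ) : M4 := fun i j =>
  (s * kap J b)⁻¹ * MM J b i j + hf J (Pi.single 0 1) i j

theorem val_Om (J : M4) (b : Fin 4 → ℝ) (s : ℝ) (u v : Fin 4 → ℝ) :
    val (Om J b s) u v = (s * kap J b)⁻¹ * ∑ k, val (hf J (eta J b k)) u v +
      val (hf J (Pi.single 0 1)) u v := by
  rw [← val_MM]
  simp only [val, dotProduct, mulVec, Fin.sum_univ_four, Om]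
  ring

theorem Om_inv {J : M4} (hJ : J * J = -1) (b : Fin 4 → ℝ) (s : ℝ) (u v : Fin 4 → ℝ) :
    val (Om J b s) (J *ᵥ u) (J *ᵥ v) = val (Om J b s) u v := by
  simp only [val_Om, hf_inv hJ]

theorem Om_pos {J : M4} (hJ : J * J = -1) {b : Fin 4 → ℝ} (hp : pp J b ≠ 0) {s : ℝ}
    (hs : 0 < s * kap J b) {v : Fin 4 → ℝ} (hv : v ≠ 0) :
    0 < val (Om J b s) v (J *ᵥ v) := by
  rw [val_Om]
  simp only [hf_pos hJ, single_one_dotProduct]
  have hinv : 0 < (s * kap J b)⁻¹ := inv_pos.2 hs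
  have hsum : 0 ≤ ∑ k, ((eta J b k ⬝ᵥ (J *ᵥ v)) ^ 2 + (eta J b k ⬝ᵥ v) ^ 2) :=
    Finset.sum_nonneg fun k _ => by positivity
  by_cases h0 : (J *ᵥ v) 0 = 0
  · by_cases h1 : v 0 = 0
    · have h2 : 0 < ∑ k, ((eta J b k ⬝ᵥ (J *ᵥ v)) ^ 2 + (eta J b k ⬝ᵥ v) ^ 2) := by
        refine lt_of_le_of_ne hsum fun h3 => hv ?_
        ext k
        refine Fin.cases h1 (fun k => ?_) k
        have h4 := (Finset.sum_eq_zero_iff_of_nonneg (fun k _ => by positivity)).1 h3.symm k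
          (Finset.mem_univ k)
        have h5 : eta J b k ⬝ᵥ v = 0 := by
          nlinarith [sq_nonneg (eta J b k ⬝ᵥ (J *ᵥ v)), sq_nonneg (eta J b k ⬝ᵥ v)]
        rw [eta_apply, h0, h1] at h5
        simpa [hp] using h5
      positivity
    · positivity
  · positivity

theorem Om_skew (J : M4) (b : Fin 4 → ℝ) (s : ℝ) (i j : Fin 4) : Om J b s i j = - Om J b s j i := by
  simp only [Om, MM, hf, Finset.mul_sum]
  rw [neg_add, ← Finset.sum_neg_distrib]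
  congr 1
  · refine Finset.sum_congr rfl fun k _ => ?_
    ring
  · ring

theorem Om_fib {J : M4} (hJ : J * J = -1) {b : Fin 4 → ℝ} (hb : b 0 = 0) (hp : pp J b ≠ 0)
    {s : ℝ} (hs : s ≠ 0) (i j : Fin 3) :
    Om J b s i.succ j.succ = (s * (b 1 ^ 2 + b 2 ^ 2 + b 3 ^ 2))⁻¹ * cr b i.succ j.succ := by
  have hk := kap_ne hJ hb hp
  have hB : b 1 ^ 2 + b 2 ^ 2 + b 3 ^ 2 ≠ 0 := by
    intro h
    apply hp
    have h1 : b 1 = 0 := by nlinarith [sq_nonneg (b 1), sq_nonneg (b 2), sq_nonneg (b 3)]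
    have h2 : b 2 = 0 := by nlinarith [sq_nonneg (b 1), sq_nonneg (b 2), sq_nonneg (b 3)]
    have h3 : b 3 = 0 := by nlinarith [sq_nonneg (b 1), sq_nonneg (b 2), sq_nonneg (b 3)]
    simp [pp, mulVec, dotProduct, Fin.sum_univ_four, hb, h1, h2, h3]
  have h := MM_cr hJ hb i j
  have h1 : hf J (Pi.single 0 1) i.succ j.succ = 0 := by
    simp [hf]
  rw [Om, h1, add_zero]
  field_simp
  linarith [h]

end Vale.Agent.P204
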