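import Vale.Agent.P204.Defs

open scoped ContDiff
open Matrix MeasureTheory Set

namespace Vale.Agent.P204

/-- Average over the fibre. -/
noncomputable def avg (w : Field) (i j : Fin 4) (t : ℝ) : ℝ :=
  ∫ y in Icc (0 : Fin 3 → ℝ) 1, w (Fin.cons t y) i j

theorem insert_add (k : Fin 4) (x : Fin 3 → ℝ) :
    (k.insertNth (1 : ℝ) x : Fin 4 → ℝ) = (k.insertNth (0 : ℝ) x : Fin 4 → ℝ) + Pi.single k 1 := by
  ext j
  refine Fin.succAboveCases k ?_ (fun l => ?_) j
  · simp
  · simp [Fin.succAbove_ne]

/-- The vector field used in the divergence theorem. -/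
noncomputable def fld (w : Field) (i j k : Fin 4) (x : Fin 4 → ℝ) : ℝ :=
  if k = 0 then w x i j else if k = i then w x j 0 else if k = j then w x 0 i else 0

theorem fld_smooth {w : Field} (hw : OnTorus w) (i j k : Fin 4) : ContDiff ℝ ∞ (fld w i j k) := by
  by_cases h0 : k = 0
  · have : fld w i j k = fun x => w x i j := by ext x; simp [fld, h0]
    rw [this]; exact hw.1 i j
  by_cases h1 : k = i
  · have : fld w i j k = fun x => w x j 0 := by
      ext x; simp only [fld, if_neg h0, if_pos h1]
    rw [this]; exact hw.1 j 0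
  by_cases h2 : k = j
  · have : fld w i j k = fun x => w x 0 i := by
      ext x; simp only [fld, if_neg h0, if_neg h1, if_pos h2]
    rw [this]; exact hw.1 0 i
  · have : fld w i j k = fun x => 0 := by
      ext x; simp only [fld, if_neg h0, if_neg h1, if_neg h2]
    rw [this]; exact contDiff_const

theorem fld_per {w : Field} (hw : OnTorus w) (i j k l : Fin 4) (x : Fin 4 → ℝ) :
    fld w i j k (x + Pi.single l 1) = fld w i j k x := by
  simp only [fld, hw.2]

theorem div_zero {w : Field} (hc : IsClosedForm w) {i j : Fin 4}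
    (hi : i ≠ 0) (hj : j ≠ 0) (hij : i ≠ j) (x : Fin 4 → ℝ) :
    ∑ k, fderiv ℝ (fld w i j k) x (Pi.single k 1) = 0 := by
  have h1 : ∀ k, fderiv ℝ (fld w i j k) x (Pi.single k 1) =
      (if k = 0 then pd 0 (fun y => w y i j) x else 0) +
      (if k = i then pd i (fun y => w y j 0) x else 0) +
      (if k = j then pd j (fun y => w y 0 i) x else 0) := by
    intro k
    by_cases h0 : k = 0
    · have : fld w i j k = fun x => w x i j := by ext x; simp [fld, h0]
      rw [this, if_pos h0, if_neg (h0 ▸ hi.symm), if_neg (h0 ▸ hj.symm), add_zero, add_zero, h0]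
      rfl
    by_cases h1 : k = i
    · have : fld w i j k = fun x => w x j 0 := by
        ext x; simp only [fld, if_neg h0, if_pos h1]
      rw [this, if_neg h0, if_pos h1, if_neg (h1 ▸ hij), add_zero, zero_add, h1]
      rfl
    by_cases h2 : k = j
    · have : fld w i j k = fun x => w x 0 i := by
        ext x; simp only [fld, if_neg h0, if_neg h1, if_pos h2]
      rw [this, if_neg h0, if_neg h1, if_pos h2, zero_add, zero_add, h2]
      rfl
    · have : fld w i j k = fun x => 0 := by
        ext x; simp only [fld, if_neg h0, if_neg h1, if_neg h2]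
      rw [this, if_neg h0, if_neg h1, if_neg h2]
      simp
  simp only [h1, Finset.sum_add_distrib, Finset.sum_ite_eq', Finset.mem_univ, if_true]
  exact hc x 0 i j

theorem avg_const {w : Field} (hw : IsTwoForm w) (hc : IsClosedForm w) {i j : Fin 4}
    (hi : i ≠ 0) (hj : j ≠ 0) (hij : i ≠ j) {s t : ℝ} (hst : s ≤ t) :
    avg w i j t = avg w i j s := by
  classical
  have hle : (Fin.cons s 0 : Fin 4 → ℝ) ≤ Fin.cons t 1 := by
    intro k
    refine Fin.cases ?_ (fun l => ?_) k
    · simpa using hst
    · simp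
  have key := integral_divergence_of_hasFDerivAt_off_countable' (n := 3) (E := ℝ)
    (Fin.cons s 0 : Fin 4 → ℝ) (Fin.cons t 1) hle (fld w i j)
    (fun k x => fderiv ℝ (fld w i j k) x) ∅ countable_empty
    (fun k => (fld_smooth hw.1 i j k).continuous.continuousOn)
    (fun x _ k => ((fld_smooth hw.1 i j k).differentiable (by simp) x).hasFDerivAt) (by
      simp only [div_zero hc hi hj hij]
      exact integrableOn_zero)
  simp only [div_zero hc hi hj hij, integral_zero] at key
  rw [Fin.sum_univ_succ] at key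
  have h0 : ∀ k : Fin 3, (∫ x in Icc ((Fin.cons s 0 : Fin 4 → ℝ) ∘ (k.succ).succAbove)
      ((Fin.cons t 1 : Fin 4 → ℝ) ∘ (k.succ).succAbove), fld w i j k.succ
        ((k.succ).insertNth ((Fin.cons t 1 : Fin 4 → ℝ) k.succ) x)) -
      (∫ x in Icc ((Fin.cons s 0 : Fin 4 → ℝ) ∘ (k.succ).succAbove)
      ((Fin.cons t 1 : Fin 4 → ℝ) ∘ (k.succ).succAbove), fld w i j k.succ
        ((k.succ).insertNth ((Fin.cons s 0 : Fin 4 → ℝ) k.succ) x)) = 0 := by
    intro k
    rw [sub_eq_zero]
    refine integral_congr_ae (Filter.Eventually.of_forall fun x => ?_)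
    simp only [Fin.cons_succ, Pi.one_apply, Pi.zero_apply]
    rw [insert_add, fld_per hw.1]
  rw [Finset.sum_eq_zero (fun k _ => h0 k), add_zero] at key
  have h1 : ∀ r : ℝ, ∀ x : Fin 3 → ℝ, fld w i j 0 ((0 : Fin 4).insertNth r x) =
      w (Fin.cons r x) i j := by
    intro r x
    simp [fld]
  have h2 : (Fin.cons s 0 : Fin 4 → ℝ) ∘ (0 : Fin 4).succAbove = (0 : Fin 3 → ℝ) := by
    ext k; simp
  have h3 : (Fin.cons t 1 : Fin 4 → ℝ) ∘ (0 : Fin 4).succAbove = (1 : Fin 3 → ℝ) := by
    ext k; simp
  simp only [h1, h2, h3, Fin.cons_zero] at key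
  unfold avg
  linarith [key]

end Vale.Agent.P204
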