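import Vale.Agent.P204.Defs

/-!
# Tensor fields on the mapping torus of an integer matrix

For `A` in `SL(3, Z)` let `X_A` be the quotient of `R^4 = R x R^3` by the group generated by the
translations by `Z^3` in the last three coordinates and by `(t, y) ↦ (t + 1, A y)`. It is a closed
four-manifold, a bundle of three-tori over the circle; `X_1` is the torus `T^4`. Tensor fields on
`X_A` are tensor fields on `R^4` invariant under this group.
-/

open scoped ContDiff
open Matrix

namespace Vale.Agent.P204

/-- The real 4 x 4 block matrix `diag (1, A)`. -/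
def blk (A : Matrix (Fin 3) (Fin 3) ℤ) : Matrix (Fin 4) (Fin 4) ℝ := fun i j =>
  Fin.cases (Fin.cases 1 (fun _ => 0) j) (fun k => Fin.cases 0 (fun l => (A k l : ℝ)) j) i

/-- The transformation `(t, y) ↦ (t + 1, A y)` of `R^4`; its differential is `blk A`. -/
def deck (A : Matrix (Fin 3) (Fin 3) ℤ) (x : Fin 4 → ℝ) : Fin 4 → ℝ :=
  blk A *ᵥ x + Pi.single 0 1

/-- The field is smooth and invariant under the translations by the standard basis vectors of the
last three coordinates. -/
def FibrePeriodic (F : Field) : Prop :=
  (∀ i j, ContDiff ℝ ∞ (fun x => F x i j)) ∧ ∀ x (k : Fin 3), F (x + Pi.single k.succ 1) = F x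

/-- `J` is a smooth almost complex structure on `X_A`: a smooth field of endomorphisms with square
minus the identity, invariant under `Z^3` and under `deck A`. -/
def AlmostComplexOn (A : Matrix (Fin 3) (Fin 3) ℤ) (J : Field) : Prop :=
  FibrePeriodic J ∧ (∀ x, J (deck A x) * blk A = blk A * J x) ∧ ∀ x, J x * J x = -1

/-- `w` is the coefficient matrix of a smooth two-form on `X_A`: skew, smooth, and invariant under
the pullbacks by `Z^3` and by `deck A`. -/
def TwoFormOn (A : Matrix (Fin 3) (Fin 3) ℤ) (w : Field) : Prop :=
  FibrePeriodic w ∧ (∀ x, (blk A)ᵀ * w (deck A x) * blk A = w x) ∧ ∀ x i j, w x i j = - w x j i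

end Vale.Agent.P204
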