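import Mathlib

open Matrix MeasureTheory Set

namespace Vale.Agent.P204

/-- The real matrix of an integer matrix. -/
def re (A : Matrix (Fin 3) (Fin 3) ℤ) : Matrix (Fin 3) (Fin 3) ℝ := (Int.castRingHom ℝ).mapMatrix A

theorem re_mul (A B : Matrix (Fin 3) (Fin 3) ℤ) : re (A * B) = re A * re B := map_mul _ _ _

theorem re_one : re 1 = 1 := map_one _

theorem re_apply (A : Matrix (Fin 3) (Fin 3) ℤ) (i j : Fin 3) : re A i j = (A i j : ℝ) := rfl

/-- The lattice of integer vectors. -/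
abbrev Lat : AddSubgroup (Fin 3 → ℝ) :=
  (Submodule.span ℤ (Set.range (Pi.basisFun ℝ (Fin 3)))).toAddSubgroup

theorem mem_lat (g : Fin 3 → ℝ) : g ∈ Lat ↔ ∀ k, ∃ n : ℤ, (n : ℝ) = g k := by
  rw [Submodule.mem_toAddSubgroup, Module.Basis.mem_span_iff_repr_mem ℤ (Pi.basisFun ℝ (Fin 3))]
  simp [Set.mem_range]

theorem re_mem (A : Matrix (Fin 3) (Fin 3) ℤ) {g : Fin 3 → ℝ} (hg : g ∈ Lat) :
    re A *ᵥ g ∈ Lat := by
  rw [mem_lat] at hg ⊢
  choose n hn using hg
  intro k
  refine ⟨∑ l, A k l * n l, ?_⟩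
  simp only [mulVec, dotProduct, re_apply, ← hn]
  push_cast
  rfl

/-- The induced map of the lattice. -/
def lmap (A : Matrix (Fin 3) (Fin 3) ℤ) (g : Lat) : Lat := ⟨re A *ᵥ (g : Fin 3 → ℝ), re_mem A g.2⟩

theorem lmap_bij {A : Matrix (Fin 3) (Fin 3) ℤ} (hA : IsUnit A.det) :
    Function.Bijective (lmap A⁻¹) := by
  rw [Function.bijective_iff_has_inverse]
  refine ⟨lmap A, fun g => ?_, fun g => ?_⟩
  · ext1
    simp only [lmap, mulVec_mulVec, ← re_mul, Matrix.mul_nonsing_inv A hA, re_one, one_mulVec]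
  · ext1
    simp only [lmap, mulVec_mulVec, ← re_mul, Matrix.nonsing_inv_mul A hA, re_one, one_mulVec]

theorem re_mp {A : Matrix (Fin 3) (Fin 3) ℤ} (hA : IsUnit A.det) :
    MeasurePreserving (fun y : Fin 3 → ℝ => re A *ᵥ y) volume volume := by
  have hdet : |(re A).det| = 1 := by
    have h1 : (re A).det = (A.det : ℝ) := (RingHom.map_det (Int.castRingHom ℝ) A).symm
    rcases Int.isUnit_iff.1 hA with h | h <;> rw [h1, h] <;> simp
  have hne : (re A).det ≠ 0 := by
    intro h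
    rw [h] at hdet
    simp at hdet
  have h2 := Real.map_matrix_volume_pi_eq_smul_volume_pi hne
  rw [abs_inv, hdet] at h2
  refine ⟨?_, ?_⟩
  · exact (Continuous.matrix_mulVec continuous_const continuous_id).measurable
  · have h3 : (fun y : Fin 3 → ℝ => re A *ᵥ y) = (toLin' (re A)) := by
      ext y; simp [toLin'_apply]
    rw [h3, h2]
    simp

theorem integral_comp_re {A : Matrix (Fin 3) (Fin 3) ℤ} (hA : IsUnit A.det)
    {g : (Fin 3 → ℝ) → ℝ} (hg : ∀ y k, g (y + Pi.single k 1) = g y) :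
    ∫ y in Icc (0 : Fin 3 → ℝ) 1, g (re A *ᵥ y) = ∫ y in Icc (0 : Fin 3 → ℝ) 1, g y := by
  have hfd := ZSpan.isAddFundamentalDomain' (Pi.basisFun ℝ (Fin 3)) volume
  have hper : ∀ (v : Lat) (y : Fin 3 → ℝ), g ((v : Fin 3 → ℝ) + y) = g y := by
    have h1 : ∀ (v : Fin 3 → ℝ), v ∈ Lat → ∀ y, g (v + y) = g y := by
      intro v hv
      rw [Submodule.mem_toAddSubgroup] at hv
      refine Submodule.span_induction (p := fun v _ => ∀ y, g (v + y) = g y) ?_ ?_ ?_ ?_ hv
      · rintro _ ⟨k, rfl⟩ y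
        rw [add_comm]
        simpa using hg y k
      · intro y; simp
      · intro a b _ _ ha hb y
        rw [add_assoc, ha, hb]
      · intro n a _ ha y
        induction n using Int.induction_on generalizing y with
        | zero => simp
        | succ n ih =>
          rw [add_smul, one_smul, add_assoc, ih, ha]
        | pred n ih =>
          have := ha (((-(n : ℤ) - 1) • a) + y)
          rw [← this, ← add_assoc]
          have h2 : a + (-(n : ℤ) - 1) • a = (-(n : ℤ)) • a := by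
            rw [sub_smul, one_smul]; abel
          rw [h2, ih]
    exact fun v y => h1 v v.2 y
  have hT := re_mp hA
  have hfd2 := hfd.preimage_of_equiv (f := fun y : Fin 3 → ℝ => re A *ᵥ y)
    hT.quasiMeasurePreserving (e := lmap A⁻¹) (lmap_bij hA) (by
      intro v y
      show re A *ᵥ ((lmap A⁻¹ v : Fin 3 → ℝ) + y) = (v : Fin 3 → ℝ) + re A *ᵥ y
      rw [mulVec_add]
      simp only [lmap, mulVec_mulVec, ← re_mul, Matrix.mul_nonsing_inv A hA, re_one, one_mulVec])
  have hae : (Icc (0 : Fin 3 → ℝ) 1 : Set (Fin 3 → ℝ)) =ᵐ[volume]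
      ZSpan.fundamentalDomain (Pi.basisFun ℝ (Fin 3)) := by
    rw [ZSpan.fundamentalDomain_pi_basisFun]
    exact (Measure.univ_pi_Ico_ae_eq_Icc (f := fun _ : Fin 3 => (0 : ℝ)) (g := fun _ => 1)).symm
  rw [setIntegral_congr_set hae, setIntegral_congr_set hae]
  have h5 := hT.setIntegral_preimage_emb (g := g) (s := ZSpan.fundamentalDomain (Pi.basisFun ℝ (Fin 3))) (by
    refine (Continuous.matrix_mulVec continuous_const continuous_id).measurableEmbedding ?_
    intro y z hyz
    have h7 : re A⁻¹ *ᵥ (re A *ᵥ y) = re A⁻¹ *ᵥ (re A *ᵥ z) := congrArg _ hyz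
    simpa only [mulVec_mulVec, ← re_mul, Matrix.nonsing_inv_mul A hA, re_one, one_mulVec] using h7)
  rw [← h5]
  have : Countable Lat := inferInstanceAs
    (Countable (Submodule.span ℤ (Set.range (Pi.basisFun ℝ (Fin 3)))))
  have h6 := hfd.setIntegral_eq hfd2 (f := fun y => g (re A *ᵥ y)) (by
    intro v y
    show g (re A *ᵥ ((v : Fin 3 → ℝ) + y)) = g (re A *ᵥ y)
    rw [mulVec_add]
    exact hper ⟨_, re_mem A v.2⟩ _)
  exact h6

end Vale.Agent.P204
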