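import Vale.Agent.P204.Main
import Vale.Agent.P204.BDefs
import Vale.Agent.P204.Tor

open scoped ContDiff
open Matrix MeasureTheory Set

namespace Vale.Agent.P204

theorem fld_smoothB {w : Field} (hw : FibrePeriodic w) (i j k : Fin 4) : ContDiff ℝ ∞ (fld w i j k) := by
  by_cases h0 : k = 0
  · have : fld w i j k = fun x => w x i j := by ext x; simp [fld, h0]
    rw [this]; exact hw.1 i j
  by_cases h1 : k = i
  · have : fld w i j k = fun x => w x j 0 := by
      ext x; simp only [fld, if_neg h0, if_pos h1]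
    rw [this]; exact hw.1 j 0
  by_cases h2 : k = j
  · have : fld w i j k = fun x => w x 0 i := by
      ext x; simp only [fld, if_neg h0, if_neg h1, if_pos h2]
    rw [this]; exact hw.1 0 i
  · have : fld w i j k = fun x => 0 := by
      ext x; simp only [fld, if_neg h0, if_neg h1, if_neg h2]
    rw [this]; exact contDiff_const

theorem fld_perB {w : Field} (hw : FibrePeriodic w) (i j k : Fin 4) (l : Fin 3) (x : Fin 4 → ℝ) :
    fld w i j k (x + Pi.single l.succ 1) = fld w i j k x := by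
  simp only [fld, hw.2]

theorem avg_constB {w : Field} (hw : FibrePeriodic w) (hc : IsClosedForm w) {i j : Fin 4}
    (hi : i ≠ 0) (hj : j ≠ 0) (hij : i ≠ j) {s t : ℝ} (hst : s ≤ t) :
    avg w i j t = avg w i j s := by
  classical
  have hle : (Fin.cons s 0 : Fin 4 → ℝ) ≤ Fin.cons t 1 := by
    intro k
    refine Fin.cases ?_ (fun l => ?_) k
    · simpa using hst
    · simp
  have key := integral_divergence_of_hasFDerivAt_off_countable' (n := 3) (E := ℝ)
    (Fin.cons s 0 : Fin 4 → ℝ) (Fin.cons t 1) hle (fld w i j)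
    (fun k x => fderiv ℝ (fld w i j k) x) ∅ countable_empty
    (fun k => (fld_smoothB hw i j k).continuous.continuousOn)
    (fun x _ k => ((fld_smoothB hw i j k).differentiable (by simp) x).hasFDerivAt) (by
      simp only [div_zero hc hi hj hij]
      exact integrableOn_zero)
  simp only [div_zero hc hi hj hij, integral_zero] at key
  rw [Fin.sum_univ_succ] at key
  have h0 : ∀ k : Fin 3, (∫ x in Icc ((Fin.cons s 0 : Fin 4 → ℝ) ∘ (k.succ).succAbove)
      ((Fin.cons t 1 : Fin 4 → ℝ) ∘ (k.succ).succAbove), fld w i j k.succ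
        ((k.succ).insertNth ((Fin.cons t 1 : Fin 4 → ℝ) k.succ) x)) -
      (∫ x in Icc ((Fin.cons s 0 : Fin 4 → ℝ) ∘ (k.succ).succAbove)
      ((Fin.cons t 1 : Fin 4 → ℝ) ∘ (k.succ).succAbove), fld w i j k.succ
        ((k.succ).insertNth ((Fin.cons s 0 : Fin 4 → ℝ) k.succ) x)) = 0 := by
    intro k
    rw [sub_eq_zero]
    refine integral_congr_ae (Filter.Eventually.of_forall fun x => ?_)
    simp only [Fin.cons_succ, Pi.one_apply, Pi.zero_apply]
    rw [insert_add, fld_perB hw]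
  rw [Finset.sum_eq_zero (fun k _ => h0 k), add_zero] at key
  have h1 : ∀ r : ℝ, ∀ x : Fin 3 → ℝ, fld w i j 0 ((0 : Fin 4).insertNth r x) =
      w (Fin.cons r x) i j := by
    intro r x
    simp [fld]
  have h2 : (Fin.cons s 0 : Fin 4 → ℝ) ∘ (0 : Fin 4).succAbove = (0 : Fin 3 → ℝ) := by
    ext k; simp
  have h3 : (Fin.cons t 1 : Fin 4 → ℝ) ∘ (0 : Fin 4).succAbove = (1 : Fin 3 → ℝ) := by
    ext k; simp
  simp only [h1, h2, h3, Fin.cons_zero] at key
  unfold avg
  linarith [key]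

/-- A two-form depending on `x 0` only, with constant fibre block, is closed. -/
theorem closed_of_fibB {w : Field} (hw : FibrePeriodic w)
    (hsk : ∀ x i j, w x i j = - w x j i) (h0 : TorusInvariant w) {C : M4}
    (hC : ∀ x, ∀ i j : Fin 3, w x i.succ j.succ = C i.succ j.succ) : IsClosedForm w := by
  have hz : ∀ k : Fin 4, k ≠ 0 → ∀ i j x, pd k (fun y => w y i j) x = 0 := by
    intro k hk i j x
    exact pd_zero (hw.1 i j) (fun x y hxy => by rw [h0 x y hxy]) hk x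
  have hc : ∀ i j : Fin 4, i ≠ 0 → j ≠ 0 → ∀ k x, pd k (fun y => w y i j) x = 0 := by
    intro i j hi hj k x
    obtain ⟨i, rfl⟩ := Fin.exists_succ_eq.2 hi
    obtain ⟨j, rfl⟩ := Fin.exists_succ_eq.2 hj
    have : (fun y => w y i.succ j.succ) = fun _ => C i.succ j.succ := by
      ext y; exact hC y i j
    rw [this, pd_const]
  have hs : ∀ i j k x, pd k (fun y => w y i j) x = - pd k (fun y => w y j i) x := by
    intro i j k x
    have : (fun y => w y i j) = fun y => - w y j i := by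
      ext y; exact hsk y i j
    rw [this]
    simp only [pd]
    rw [fderiv_fun_neg]
    rfl
  have hd : ∀ i k x, pd k (fun y => w y i i) x = 0 := by
    intro i k x
    have := hs i i k x
    linarith
  intro x i j k
  by_cases hi : i = 0
  · subst hi
    by_cases hj : j = 0
    · subst hj
      by_cases hk : k = 0
      · subst hk
        rw [hd, add_zero, add_zero]
      · rw [hz k hk, hs 0 k 0 x]; ring
    · by_cases hk : k = 0
      · subst hk
        rw [hz j hj, hs 0 j 0 x]; ring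
      · rw [hc j k hj hk, hz j hj, hz k hk]; ring
  · by_cases hj : j = 0
    · subst hj
      by_cases hk : k = 0
      · subst hk
        rw [hz i hi, hs 0 i 0 x]; ring
      · rw [hz i hi, hc k i hk hi, hz k hk]; ring
    · by_cases hk : k = 0
      · subst hk
        rw [hz i hi, hz j hj, hc i j hi hj]; ring
      · rw [hz i hi, hz j hj, hz k hk]; ring


theorem val_cr (c u v : Fin 4 → ℝ) : val (cr c) u v = c 3 * (u 1 * v 2 - u 2 * v 1) +
    c 1 * (u 2 * v 3 - u 3 * v 2) + c 2 * (u 3 * v 1 - u 1 * v 3) := by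
  simp only [val, dotProduct, mulVec, Fin.sum_univ_four]
  have c00 : cr c 0 0 = 0 := rfl
  have c01 : cr c 0 1 = 0 := rfl
  have c02 : cr c 0 2 = 0 := rfl
  have c03 : cr c 0 3 = 0 := rfl
  have c10 : cr c 1 0 = 0 := rfl
  have c20 : cr c 2 0 = 0 := rfl
  have c30 : cr c 3 0 = 0 := rfl
  have c11 : cr c 1 1 = 0 := rfl
  have c12 : cr c 1 2 = c 3 := rfl
  have c13 : cr c 1 3 = -c 2 := rfl
  have c21 : cr c 2 1 = -c 3 := rfl
  have c22 : cr c 2 2 = 0 := rfl
  have c23 : cr c 2 3 = c 1 := rfl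
  have c31 : cr c 3 1 = c 2 := rfl
  have c32 : cr c 3 2 = -c 1 := rfl
  have c33 : cr c 3 3 = 0 := rfl
  rw [c00, c01, c02, c03, c10, c20, c30, c11, c12, c13, c21, c22, c23, c31, c32, c33]
  ring

/-- The fibre block of a closed two-form, averaged. -/
noncomputable def bvec (w : Field) : Fin 4 → ℝ := ![0, avg w 2 3 0, avg w 3 1 0, avg w 1 2 0]

theorem cont_fib {w : Field} (hw : FibrePeriodic w) (t : ℝ) (i j : Fin 4) :
    Continuous (fun y : Fin 3 → ℝ => w (Fin.cons t y) i j) := by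
  have h1 : Continuous (fun y : Fin 3 → ℝ => (Fin.cons t y : Fin 4 → ℝ)) := by
    refine continuous_pi fun k => ?_
    refine Fin.cases ?_ (fun l => ?_) k
    · simpa using continuous_const
    · simpa using continuous_apply l
  exact (hw.1 i j).continuous.comp h1

theorem cont_val {w : Field} (hw : FibrePeriodic w) (t : ℝ) (u v : Fin 4 → ℝ) :
    Continuous (fun y : Fin 3 → ℝ => val (w (Fin.cons t y)) u v) := by
  simp only [val, dotProduct, mulVec]
  exact continuous_finsetSum _ fun i _ => continuous_const.mul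
    (continuous_finsetSum _ fun j _ => (cont_fib hw t i j).mul continuous_const)

theorem avg_val {w : Field} (hw : FibrePeriodic w) (hsk : ∀ x i j, w x i j = - w x j i)
    (hc : IsClosedForm w) (t : ℝ) {v u : Fin 4 → ℝ} (hv0 : v 0 = 0) (hu0 : u 0 = 0) :
    ∫ y in Icc (0 : Fin 3 → ℝ) 1, val (w (Fin.cons t y)) v u = val (cr (bvec w)) v u := by
  have hconst : ∀ i j : Fin 4, i ≠ 0 → j ≠ 0 → i ≠ j → ∀ s t : ℝ, avg w i j t = avg w i j s := by
    intro i j hi hj hij s t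
    rcases le_total s t with h | h
    · exact avg_constB hw hc hi hj hij h
    · exact (avg_constB hw hc hi hj hij h).symm
  have hint : ∀ i j : Fin 4, IntegrableOn (fun y : Fin 3 → ℝ => w (Fin.cons t y) i j)
      (Icc (0 : Fin 3 → ℝ) 1) := fun i j =>
    (cont_fib hw t i j).continuousOn.integrableOn_compact isCompact_Icc
  have hval : ∀ y : Fin 3 → ℝ, val (w (Fin.cons t y)) v u =
      (v 1 * u 2 - v 2 * u 1) * w (Fin.cons t y) 1 2 +
      (v 2 * u 3 - v 3 * u 2) * w (Fin.cons t y) 2 3 +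
      (v 3 * u 1 - v 1 * u 3) * w (Fin.cons t y) 3 1 := by
    intro y
    have a11 := hsk (Fin.cons t y) 1 1
    have a22 := hsk (Fin.cons t y) 2 2
    have a33 := hsk (Fin.cons t y) 3 3
    have a21 := hsk (Fin.cons t y) 2 1
    have a32 := hsk (Fin.cons t y) 3 2
    have a13 := hsk (Fin.cons t y) 1 3
    simp only [val, dotProduct, mulVec, Fin.sum_univ_four, hv0, hu0]
    generalize w (Fin.cons t y) = A at *
    linear_combination (v 2 * u 1) * a21 + (v 3 * u 2) * a32 + (v 1 * u 3) * a13 +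
      (v 1 * u 1 / 2) * a11 + (v 2 * u 2 / 2) * a22 + (v 3 * u 3 / 2) * a33
  simp only [hval]
  rw [integral_add, integral_add, integral_const_mul, integral_const_mul, integral_const_mul]
  · have e1 : ∫ y in Icc (0 : Fin 3 → ℝ) 1, w (Fin.cons t y) 1 2 = avg w 1 2 0 :=
      hconst 1 2 (by decide) (by decide) (by decide) 0 t
    have e2 : ∫ y in Icc (0 : Fin 3 → ℝ) 1, w (Fin.cons t y) 2 3 = avg w 2 3 0 :=
      hconst 2 3 (by decide) (by decide) (by decide) 0 t
    have e3 : ∫ y in Icc (0 : Fin 3 → ℝ) 1, w (Fin.cons t y) 3 1 = avg w 3 1 0 :=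
      hconst 3 1 (by decide) (by decide) (by decide) 0 t
    have b1 : bvec w 1 = avg w 2 3 0 := rfl
    have b2 : bvec w 2 = avg w 3 1 0 := rfl
    have b3 : bvec w 3 = avg w 1 2 0 := rfl
    rw [e1, e2, e3, val_cr, b1, b2, b3]
    ring
  · exact (hint 1 2).const_mul _
  · exact (hint 2 3).const_mul _
  · exact ((hint 1 2).const_mul _).add ((hint 2 3).const_mul _)
  · exact (hint 3 1).const_mul _

theorem pp_ne {w J : Field} {x : Fin 4 → ℝ} (hJ : J x * J x = -1) (hT : TorusInvariant J)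
    (hw : FibrePeriodic w) (hsk : ∀ x i j, w x i j = - w x j i)
    (hc : IsClosedForm w) (ht : Tames w J) : pp (J x) (bvec w) ≠ 0 := by
  intro hx
  set b : Fin 4 → ℝ := bvec w with hbdef
  obtain ⟨v, hv, hv0, hJv⟩ := exists_w (J x)
  set u : Fin 4 → ℝ := J x *ᵥ v with hu
  have hI : 0 < ∫ y in Icc (0 : Fin 3 → ℝ) 1, val (w (Fin.cons (x 0) y)) v u := by
    have hpos : ∀ y : Fin 3 → ℝ, 0 < val (w (Fin.cons (x 0) y)) v u := by
      intro y
      have hJ' : J x = J (Fin.cons (x 0) y) := hT _ _ (by simp)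
      have := ht (Fin.cons (x 0) y) v hv
      rwa [← hJ'] at this
    rw [setIntegral_pos_iff_support_of_nonneg_ae]
    · have : Function.support (fun y : Fin 3 → ℝ => val (w (Fin.cons (x 0) y)) v u) = univ := by
        ext y
        simp [(hpos y).ne']
      rw [this, univ_inter, Real.volume_Icc_pi]
      simp
    · exact Filter.Eventually.of_forall fun y => (hpos y).le
    · exact (cont_val hw _ _ _).continuousOn.integrableOn_compact isCompact_Icc
  have hu0 : u 0 = 0 := hJv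
  rw [avg_val hw hsk hc (x 0) hv0 hu0] at hI
  have hb0 : b 0 = 0 := rfl
  have q1 : v 1 * J x 0 1 + v 2 * J x 0 2 + v 3 * J x 0 3 = 0 := by
    have h1 : (J x *ᵥ v) 0 = 0 := hJv
    simp only [mulVec, dotProduct, Fin.sum_univ_four, hv0] at h1
    linarith
  have q2 : u 1 * J x 0 1 + u 2 * J x 0 2 + u 3 * J x 0 3 = 0 := by
    have h1 : (J x *ᵥ u) 0 = 0 := by
      rw [hu, JJ hJ]
      simp [hv0]
    simp only [mulVec, dotProduct, Fin.sum_univ_four, hu0] at h1
    linarith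
  have q3 : b 1 * J x 0 1 + b 2 * J x 0 2 + b 3 * J x 0 3 = 0 := by
    have h1 : (J x *ᵥ b) 0 = 0 := hx
    simp only [mulVec, dotProduct, Fin.sum_univ_four, hb0] at h1
    linarith
  have hkey : (J x 0 1 ^ 2 + J x 0 2 ^ 2 + J x 0 3 ^ 2) * val (cr b) v u = 0 := by
    rw [val_cr]
    generalize J x 0 1 = p1 at *
    generalize J x 0 2 = p2 at *
    generalize J x 0 3 = p3 at *
    linear_combination ((v 2 * u 3 - v 3 * u 2) * p1 + (v 3 * u 1 - v 1 * u 3) * p2 +
      (v 1 * u 2 - v 2 * u 1) * p3) * q3 +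
      (b 1 * (p2 * u 3 - p3 * u 2) + b 2 * (p3 * u 1 - p1 * u 3) + b 3 * (p1 * u 2 - p2 * u 1)) * q1 -
      (b 1 * (p2 * v 3 - p3 * v 2) + b 2 * (p3 * v 1 - p1 * v 3) + b 3 * (p1 * v 2 - p2 * v 1)) * q2
  have hphi : J x 0 1 ^ 2 + J x 0 2 ^ 2 + J x 0 3 ^ 2 = 0 :=
    (mul_eq_zero.1 hkey).resolve_right hI.ne'
  have h1 : J x 0 1 = 0 := by
    nlinarith [sq_nonneg (J x 0 1), sq_nonneg (J x 0 2), sq_nonneg (J x 0 3)]
  have h2 : J x 0 2 = 0 := by
    nlinarith [sq_nonneg (J x 0 1), sq_nonneg (J x 0 2), sq_nonneg (J x 0 3)]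
  have h3 : J x 0 3 = 0 := by
    nlinarith [sq_nonneg (J x 0 1), sq_nonneg (J x 0 2), sq_nonneg (J x 0 3)]
  have h4 : (J x * J x) 0 0 = -1 := by rw [hJ]; simp
  rw [Matrix.mul_apply, Fin.sum_univ_four, h1, h2, h3] at h4
  nlinarith [sq_nonneg (J x 0 0)]

/-! ## The block matrix -/

theorem blk_zero (A : Matrix (Fin 3) (Fin 3) ℤ) (u : Fin 4 → ℝ) : (blk A *ᵥ u) 0 = u 0 := by
  simp [mulVec, dotProduct, Fin.sum_univ_succ, blk]

theorem blk_succ (A : Matrix (Fin 3) (Fin 3) ℤ) (u : Fin 4 → ℝ) (k : Fin 3) :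
    (blk A *ᵥ u) k.succ = (re A *ᵥ fun l => u l.succ) k := by
  simp [mulVec, dotProduct, Fin.sum_univ_succ (n := 3), blk, re_apply]

theorem deck_cons (A : Matrix (Fin 3) (Fin 3) ℤ) (t : ℝ) (y : Fin 3 → ℝ) :
    deck A (Fin.cons t y) = Fin.cons (t + 1) (re A *ᵥ y) := by
  ext k
  refine Fin.cases ?_ (fun l => ?_) k
  · simp only [deck, Pi.add_apply, blk_zero]
    simp
  · simp only [deck, Pi.add_apply, blk_succ]
    simp

theorem tri_blk (A : Matrix (Fin 3) (Fin 3) ℤ) (c u v : Fin 4 → ℝ) :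
    val (cr (blk A *ᵥ c)) (blk A *ᵥ u) (blk A *ᵥ v) = (A.det : ℝ) * val (cr c) u v := by
  have h1 : ∀ z : Fin 4 → ℝ, (blk A *ᵥ z) 1 = A 0 0 * z 1 + A 0 1 * z 2 + A 0 2 * z 3 := by
    intro z
    have := blk_succ A z 0
    simpa [mulVec, dotProduct, Fin.sum_univ_three, re_apply] using this
  have h2 : ∀ z : Fin 4 → ℝ, (blk A *ᵥ z) 2 = A 1 0 * z 1 + A 1 1 * z 2 + A 1 2 * z 3 := by
    intro z
    have := blk_succ A z 1
    simpa [mulVec, dotProduct, Fin.sum_univ_three, re_apply] using this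
  have h3 : ∀ z : Fin 4 → ℝ, (blk A *ᵥ z) 3 = A 2 0 * z 1 + A 2 1 * z 2 + A 2 2 * z 3 := by
    intro z
    have := blk_succ A z 2
    simpa [mulVec, dotProduct, Fin.sum_univ_three, re_apply] using this
  rw [val_cr, val_cr, h1, h2, h3, h1, h2, h3, h1, h2, h3, det_fin_three]
  push_cast
  ring

theorem val_conj (D M : M4) (u v : Fin 4 → ℝ) :
    val (Dᵀ * M * D) u v = val M (D *ᵥ u) (D *ᵥ v) := by
  rw [val, val, Matrix.mul_assoc, ← mulVec_mulVec, ← mulVec_mulVec, dotProduct_mulVec,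
    vecMul_transpose]

theorem inv_b {A : Matrix (Fin 3) (Fin 3) ℤ} (hA : A.det = 1) {w : Field} (hw : TwoFormOn A w)
    (hc : IsClosedForm w) {u v : Fin 4 → ℝ} (hu : u 0 = 0) (hv : v 0 = 0) :
    val (cr (bvec w)) (blk A *ᵥ u) (blk A *ᵥ v) = val (cr (bvec w)) u v := by
  have hu' : (blk A *ᵥ u) 0 = 0 := by rw [blk_zero, hu]
  have hv' : (blk A *ᵥ v) 0 = 0 := by rw [blk_zero, hv]
  have hU : IsUnit A.det := by rw [hA]; exact isUnit_one
  rw [← avg_val hw.1 hw.2.2 hc (0 + 1) hu' hv', ← avg_val hw.1 hw.2.2 hc 0 hu hv]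
  rw [← integral_comp_re hU]
  · refine integral_congr_ae (Filter.Eventually.of_forall fun y => ?_)
    simp only
    rw [← deck_cons, ← val_conj, hw.2.1]
  · intro y k
    have h1 : (Fin.cons (0 + 1) (y + Pi.single k 1) : Fin 4 → ℝ) =
        Fin.cons (0 + 1) y + Pi.single k.succ 1 := by
      ext l
      refine Fin.cases ?_ (fun l => ?_) l
      · simp
      · simp [Pi.single_apply, Fin.succ_inj]
    rw [h1, hw.1.2]

theorem fix_b {A : Matrix (Fin 3) (Fin 3) ℤ} (hA : A.det = 1) {b : Fin 4 → ℝ} (hb0 : b 0 = 0)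
    (h : ∀ u v : Fin 4 → ℝ, u 0 = 0 → v 0 = 0 →
      val (cr b) (blk A *ᵥ u) (blk A *ᵥ v) = val (cr b) u v) : blk A *ᵥ b = b := by
  have hU : IsUnit A.det := by rw [hA]; exact isUnit_one
  set c : Fin 4 → ℝ := Fin.cons 0 (re A⁻¹ *ᵥ fun l => b l.succ) with hcdef
  have hDc : blk A *ᵥ c = b := by
    ext k
    refine Fin.cases ?_ (fun k => ?_) k
    · rw [blk_zero, hb0]; rfl
    · rw [blk_succ]
      have : (fun l : Fin 3 => c l.succ) = re A⁻¹ *ᵥ fun l => b l.succ := by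
        ext l; simp [hcdef]
      rw [this, mulVec_mulVec, ← re_mul, Matrix.mul_nonsing_inv A hU, re_one, one_mulVec]
  have h1 : ∀ u v : Fin 4 → ℝ, u 0 = 0 → v 0 = 0 → val (cr c) u v = val (cr b) u v := by
    intro u v hu hv
    have h2 := tri_blk A c u v
    rw [hA, hDc, h u v hu hv] at h2
    simpa using h2.symm
  have e3 := h1 (Pi.single 1 1) (Pi.single 2 1) (by simp) (by simp)
  have e1 := h1 (Pi.single 2 1) (Pi.single 3 1) (by simp) (by simp)
  have e2 := h1 (Pi.single 3 1) (Pi.single 1 1) (by simp) (by simp)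
  simp [val_cr] at e1 e2 e3
  have hcb : c = b := by
    ext k
    fin_cases k
    · exact hb0.symm
    · exact e1
    · exact e2
    · exact e3
  rw [hcb] at hDc
  exact hDc

/-! ## Equivariance of the compatible form -/

theorem val_add_left (N : M4) (u u' v : Fin 4 → ℝ) : val N (u + u') v = val N u v + val N u' v := by
  simp [val, add_dotProduct]

theorem val_smul_left (N : M4) (r : ℝ) (u v : Fin 4 → ℝ) : val N (r • u) v = r * val N u v := by
  simp [val, smul_dotProduct]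

theorem val_add_right (N : M4) (u v v' : Fin 4 → ℝ) : val N u (v + v') = val N u v + val N u v' := by
  simp [val, mulVec_add, dotProduct_add]

theorem val_smul_right (N : M4) (r : ℝ) (u v : Fin 4 → ℝ) : val N u (r • v) = r * val N u v := by
  simp [val, mulVec_smul, dotProduct_smul]

theorem uniq {N J : M4} (hJ : J * J = -1) {b : Fin 4 → ℝ}
    (hinv : ∀ u v, val N (J *ᵥ u) (J *ᵥ v) = val N u v) (hsk : ∀ u v, val N u v = - val N v u)
    (hV : ∀ u v : Fin 4 → ℝ, u 0 = 0 → v 0 = 0 → val N u v = 0) (hb0 : b 0 = 0)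
    (hp : (J *ᵥ b) 0 ≠ 0) (hbb : val N b (J *ᵥ b) = 0) (u v : Fin 4 → ℝ) : val N u v = 0 := by
  have s1 : ∀ v : Fin 4 → ℝ, v 0 = 0 → val N v (J *ᵥ b) = 0 := by
    intro v hv
    set r : ℝ := (J *ᵥ v) 0 / (J *ᵥ b) 0 with hr
    have hw0 : (v + (-r) • b) 0 = 0 := by simp [hv, hb0]
    have hJw : (J *ᵥ (v + (-r) • b)) 0 = 0 := by
      rw [mulVec_add, mulVec_smul]
      simp only [Pi.add_apply, Pi.smul_apply, smul_eq_mul, hr]
      field_simp
      ring
    have h1 : val N (v + (-r) • b) (J *ᵥ b) = 0 := by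
      rw [← hinv, JJ hJ]
      exact hV _ _ hJw (by simp [hb0])
    rw [val_add_left, val_smul_left, hbb, mul_zero, add_zero] at h1
    exact h1
  have dec : ∀ u : Fin 4 → ℝ, ∃ (v : Fin 4 → ℝ) (r : ℝ), v 0 = 0 ∧ u = v + r • (J *ᵥ b) := by
    intro u
    refine ⟨u + (-(u 0 / (J *ᵥ b) 0)) • (J *ᵥ b), u 0 / (J *ᵥ b) 0, ?_, ?_⟩
    · simp only [Pi.add_apply, Pi.smul_apply, smul_eq_mul]
      field_simp
      ring
    · rw [neg_smul]; abel
  obtain ⟨u', r, hu0, rfl⟩ := dec u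
  obtain ⟨v', r', hv0, rfl⟩ := dec v
  have hbJ : val N (J *ᵥ b) (J *ᵥ b) = 0 := by
    have := hsk (J *ᵥ b) (J *ᵥ b)
    linarith
  rw [val_add_left, val_add_right, val_add_right, val_smul_left, val_smul_left, val_smul_right,
    val_smul_right, hV u' v' hu0 hv0, s1 u' hu0, hsk (J *ᵥ b) v', s1 v' hv0, hbJ]
  ring

theorem val_single (N : M4) (i j : Fin 4) : val N (Pi.single i 1) (Pi.single j 1) = N i j := by
  simp [val]

theorem Om_bJb {J : M4} (hJ : J * J = -1) {b : Fin 4 → ℝ} (hb : b 0 = 0) (s : ℝ) :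
    val (Om J b s) b (J *ᵥ b) = ((J *ᵥ b) 0) ^ 2 := by
  rw [val_Om]
  simp only [hf_pos hJ, eta_b hb, eta_Jb hJ hb, single_one_dotProduct, hb]
  simp

theorem Om_equi {J J' D : M4} (hJ : J * J = -1) (hJ' : J' * J' = -1) (hD : J' * D = D * J)
    {b : Fin 4 → ℝ} (hb : b 0 = 0) (hp : pp J b ≠ 0) (hp' : pp J' b ≠ 0)
    (hD0 : ∀ u : Fin 4 → ℝ, (D *ᵥ u) 0 = u 0) (hDb : D *ᵥ b = b)
    (hcr : ∀ u v : Fin 4 → ℝ, u 0 = 0 → v 0 = 0 →
      val (cr b) (D *ᵥ u) (D *ᵥ v) = val (cr b) u v) {s : ℝ} (hs : s ≠ 0) :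
    Dᵀ * Om J' b s * D = Om J b s := by
  have hval : ∀ u v, val (Dᵀ * Om J' b s * D - Om J b s) u v =
      val (Om J' b s) (D *ᵥ u) (D *ᵥ v) - val (Om J b s) u v := by
    intro u v
    rw [← val_conj]
    simp [val, sub_mulVec, dotProduct_sub]
  have hDJ : ∀ u : Fin 4 → ℝ, D *ᵥ (J *ᵥ u) = J' *ᵥ (D *ᵥ u) := by
    intro u
    rw [mulVec_mulVec, mulVec_mulVec, hD]
  have hsk : ∀ (K : M4), (∀ i j, K i j = - K j i) → ∀ u v, val K u v = - val K v u := by
    intro K hK u v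
    simp only [val, dotProduct, mulVec, Fin.sum_univ_four]
    have := hK 0 0; have := hK 1 1; have := hK 2 2; have := hK 3 3
    rw [hK 1 0, hK 2 0, hK 3 0, hK 2 1, hK 3 1, hK 3 2]
    linear_combination (u 0 * v 0) * hK 0 0 + (u 1 * v 1) * hK 1 1 + (u 2 * v 2) * hK 2 2 +
      (u 3 * v 3) * hK 3 3
  have hN := uniq (N := Dᵀ * Om J' b s * D - Om J b s) (b := b) hJ ?_ ?_ ?_ hb hp ?_
  · ext i j
    have := hN (Pi.single i 1) (Pi.single j 1)
    rw [val_single, Matrix.sub_apply] at this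
    linarith
  · intro u v
    rw [hval, hval, hDJ, hDJ, Om_inv hJ', Om_inv hJ]
  · intro u v
    rw [hval, hval, hsk _ (Om_skew J' b s) (D *ᵥ u), hsk _ (Om_skew J b s) u]
    ring
  · intro u v hu hv
    rw [hval, val_fib (Om_fib hJ' hb hp' hs) (by rw [hD0, hu]) (by rw [hD0, hv]),
      val_fib (Om_fib hJ hb hp hs) hu hv, hcr u v hu hv, sub_self]
  · rw [hval, hDJ, hDb, Om_bJb hJ' hb, Om_bJb hJ hb]
    have h1 : (J' *ᵥ b) 0 = (J *ᵥ b) 0 := by
      rw [← hD0 (J *ᵥ b), hDJ, hDb]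
    rw [h1, sub_self]

theorem exists_compatibleB {A : Matrix (Fin 3) (Fin 3) ℤ} (hA : A.det = 1) {J : Field}
    (hJ : AlmostComplexOn A J) (hT : TorusInvariant J) {b : Fin 4 → ℝ} (hb : b 0 = 0)
    (hDb : blk A *ᵥ b = b) (hp : ∀ x, pp (J x) b ≠ 0) :
    ∃ w : Field, TwoFormOn A w ∧ TorusInvariant w ∧ IsClosedForm w ∧ Tames w J ∧
      Invariant w J := by
  have hJJ := hJ.2.2
  obtain ⟨s, hs0, hs⟩ := exists_sign (smooth_kap hJ.1.1 b).continuous
    (fun x => kap_ne (hJJ x) hb (hp x))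
  have h2 : FibrePeriodic (fun x => Om (J x) b s) := by
    refine ⟨fun i j => smooth_Om hJ.1.1 b (fun x => (hs x).ne') i j, fun x k => ?_⟩
    simp only [hJ.1.2]
  have h3 : TorusInvariant (fun x => Om (J x) b s) := fun x y hxy => by
    simp only [hT x y hxy]
  have hcr : ∀ u v : Fin 4 → ℝ, u 0 = 0 → v 0 = 0 →
      val (cr b) (blk A *ᵥ u) (blk A *ᵥ v) = val (cr b) u v := by
    intro u v _ _
    have := tri_blk A b u v
    rw [hDb, hA] at this
    simpa using this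
  refine ⟨fun x => Om (J x) b s, ⟨h2, fun x => ?_, fun x i j => Om_skew (J x) b s i j⟩, h3, ?_,
    fun x v hv => Om_pos (hJJ x) (hp x) (hs x) hv, fun x u v => Om_inv (hJJ x) b s u v⟩
  · exact Om_equi (hJJ x) (hJJ _) (hJ.2.1 x) hb (hp x) (hp _) (blk_zero A) hDb hcr hs0
  · exact closed_of_fibB h2 (fun x i j => Om_skew (J x) b s i j) h3
      (C := fun i j => (s * (b 1 ^ 2 + b 2 ^ 2 + b 3 ^ 2))⁻¹ * cr b i j)
      (fun x i j => Om_fib (hJJ x) hb (hp x) hs0 i j)

theorem exists_bB {A : Matrix (Fin 3) (Fin 3) ℤ} (hA : A.det = 1) {w J : Field}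
    (hJ : AlmostComplexOn A J) (hT : TorusInvariant J)
    (hw : TwoFormOn A w) (hc : IsClosedForm w) (ht : Tames w J) :
    ∃ b : Fin 4 → ℝ, b 0 = 0 ∧ blk A *ᵥ b = b ∧ ∀ x, pp (J x) b ≠ 0 :=
  ⟨bvec w, rfl, fix_b hA rfl fun _ _ hu hv => inv_b hA hw hc hu hv,
    fun x => pp_ne (hJ.2.2 x) hT hw.1 hw.2.2 hc ht⟩

end Vale.Agent.P204
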