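import Mathlib

/-!
# Donaldson's tamed-to-compatible question for torus-invariant structures: definitions

The torus `T^4 = R^4 / Z^4`; a tensor field of rank two on it is written as a field of real
4 x 4 matrices on `R^4` that is smooth and periodic under `Z^4`.
-/

open scoped ContDiff
open Matrix

namespace Vale.Agent.P204

/-- A field of real 4 x 4 matrices on `R^4`. -/
abbrev Field : Type := (Fin 4 → ℝ) → Matrix (Fin 4) (Fin 4) ℝ

/-- The field is smooth and invariant under translations by the standard basis vectors, so it is a
smooth field on the torus `T^4 = R^4 / Z^4`. -/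
def OnTorus (A : Field) : Prop :=
  (∀ i j, ContDiff ℝ ∞ (fun x => A x i j)) ∧ ∀ x k, A (x + Pi.single k 1) = A x

/-- `J` is a smooth almost complex structure on `T^4`: `J x` is the matrix of an endomorphism of
the tangent space at `x`, with square minus the identity. -/
def IsAlmostComplex (J : Field) : Prop := OnTorus J ∧ ∀ x, J x * J x = -1

/-- `J` is invariant under the translations of the last three coordinates
(under the subtorus `T^3`): it depends on the coordinate `x 0` only. -/
def TorusInvariant (J : Field) : Prop := ∀ x y : Fin 4 → ℝ, x 0 = y 0 → J x = J y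

/-- The value `ω_x (u, v) = ∑ i j, ω_ij(x) u_i v_j` of a two-form on two tangent vectors. -/
def val (w : Matrix (Fin 4) (Fin 4) ℝ) (u v : Fin 4 → ℝ) : ℝ := u ⬝ᵥ (w *ᵥ v)

/-- `w` is the coefficient matrix of a smooth two-form on `T^4`. -/
def IsTwoForm (w : Field) : Prop := OnTorus w ∧ ∀ x i j, w x i j = - w x j i

/-- The partial derivative of `f` in the direction of the coordinate `i`. -/
noncomputable def pd (i : Fin 4) (f : (Fin 4 → ℝ) → ℝ) (x : Fin 4 → ℝ) : ℝ :=
  fderiv ℝ f x (Pi.single i 1)

/-- The two-form with coefficients `w` is closed: its exterior derivative vanishes. -/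
def IsClosedForm (w : Field) : Prop :=
  ∀ x i j k, pd i (fun y => w y j k) x + pd j (fun y => w y k i) x + pd k (fun y => w y i j) x = 0

/-- The two-form `w` tames `J`: `w (v, J v) > 0` for every nonzero tangent vector `v`. -/
def Tames (w J : Field) : Prop := ∀ x v, v ≠ 0 → 0 < val (w x) v (J x *ᵥ v)

/-- The two-form `w` is `J`-invariant: `w (J u, J v) = w (u, v)`. -/
def Invariant (w J : Field) : Prop :=
  ∀ x u v, val (w x) (J x *ᵥ u) (J x *ᵥ v) = val (w x) u v

end Vale.Agent.P204
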