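import Vale.Agent.P204.Alg
import Vale.Agent.P204.Avg

open scoped ContDiff
open Matrix MeasureTheory Set

namespace Vale.Agent.P204

/-- Extension of a vector of `R^3` by a zero coordinate. -/
def ext0 (b : Fin 3 → ℝ) : Fin 4 → ℝ := Fin.cons 0 b

/-! ## From `b` to a compatible form -/

theorem smooth_mulVec {J : Field} (hJ : ∀ i j, ContDiff ℝ ∞ (fun x => J x i j)) (v : Fin 4 → ℝ)
    (i : Fin 4) : ContDiff ℝ ∞ (fun x => (J x *ᵥ v) i) := by
  simp only [mulVec, dotProduct]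
  exact ContDiff.sum fun j _ => (hJ i j).mul contDiff_const

theorem smooth_pp {J : Field} (hJ : ∀ i j, ContDiff ℝ ∞ (fun x => J x i j)) (v : Fin 4 → ℝ) :
    ContDiff ℝ ∞ (fun x => pp (J x) v) := smooth_mulVec hJ v 0

theorem smooth_eta {J : Field} (hJ : ∀ i j, ContDiff ℝ ∞ (fun x => J x i j)) (v : Fin 4 → ℝ)
    (k : Fin 3) (l : Fin 4) : ContDiff ℝ ∞ (fun x => eta (J x) v k l) := by
  simp only [eta]
  exact (((smooth_pp hJ v).mul contDiff_const).sub (contDiff_const.mul (hJ 0 l))).sub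
    ((smooth_mulVec hJ v k.succ).mul contDiff_const)

theorem smooth_hf {J : Field} (hJ : ∀ i j, ContDiff ℝ ∞ (fun x => J x i j))
    {e : (Fin 4 → ℝ) → (Fin 4 → ℝ)} (he : ∀ l, ContDiff ℝ ∞ (fun x => e x l)) (i j : Fin 4) :
    ContDiff ℝ ∞ (fun x => hf (J x) (e x) i j) := by
  have h : ∀ l, ContDiff ℝ ∞ (fun x => (e x ᵥ* J x) l) := by
    intro l
    simp only [vecMul, dotProduct]
    exact ContDiff.sum fun j _ => (he j).mul (hJ j l)
  exact ((h i).mul (he j)).sub ((he i).mul (h j))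

theorem smooth_MM {J : Field} (hJ : ∀ i j, ContDiff ℝ ∞ (fun x => J x i j)) (b : Fin 4 → ℝ)
    (i j : Fin 4) : ContDiff ℝ ∞ (fun x => MM (J x) b i j) := by
  simp only [MM]
  exact ContDiff.sum fun k _ => smooth_hf hJ (fun l => smooth_eta hJ b k l) i j

theorem smooth_kap {J : Field} (hJ : ∀ i j, ContDiff ℝ ∞ (fun x => J x i j)) (b : Fin 4 → ℝ) :
    ContDiff ℝ ∞ (fun x => kap (J x) b) := by
  simp only [kap]
  exact (((smooth_MM hJ b 1 2).mul contDiff_const).add
    ((smooth_MM hJ b 2 3).mul contDiff_const)).add ((smooth_MM hJ b 3 1).mul contDiff_const)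

theorem smooth_Om {J : Field} (hJ : ∀ i j, ContDiff ℝ ∞ (fun x => J x i j)) (b : Fin 4 → ℝ)
    {s : ℝ} (hs : ∀ x, s * kap (J x) b ≠ 0) (i j : Fin 4) :
    ContDiff ℝ ∞ (fun x => Om (J x) b s i j) := by
  simp only [Om]
  exact (((contDiff_const.mul (smooth_kap hJ b)).inv hs).mul (smooth_MM hJ b i j)).add
    (smooth_hf hJ (e := fun _ => Pi.single 0 1) (fun _ => contDiff_const) i j)

theorem pd_zero {f : (Fin 4 → ℝ) → ℝ} (hf : ContDiff ℝ ∞ f) (h : ∀ x y : Fin 4 → ℝ, x 0 = y 0 → f x = f y)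
    {k : Fin 4} (hk : k ≠ 0) (x : Fin 4 → ℝ) : pd k f x = 0 := by
  have h1 : HasFDerivAt f (fderiv ℝ f x) (x + (0 : ℝ) • Pi.single k 1) := by
    simpa using (hf.differentiable (by simp) x).hasFDerivAt
  have h2 : HasDerivAt (fun t : ℝ => x + t • (Pi.single k 1 : Fin 4 → ℝ)) (Pi.single k 1) 0 := by
    simpa using ((hasDerivAt_id (0 : ℝ)).smul_const (Pi.single k 1 : Fin 4 → ℝ)).const_add x
  have h3 := h1.comp_hasDerivAt (0 : ℝ) h2
  have h4 : (f ∘ fun t : ℝ => x + t • (Pi.single k 1 : Fin 4 → ℝ)) = fun _ => f x := by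
    ext t
    apply h
    simp [hk.symm]
  rw [h4] at h3
  exact h3.unique (hasDerivAt_const _ _)

theorem pd_const (c : ℝ) (k : Fin 4) (x : Fin 4 → ℝ) : pd k (fun _ => c) x = 0 := by
  simp [pd]

/-- A two-form depending on `x 0` only, with constant fibre block, is closed. -/
theorem closed_of_fib {w : Field} (hw : IsTwoForm w) (h0 : TorusInvariant w) {C : M4}
    (hC : ∀ x, ∀ i j : Fin 3, w x i.succ j.succ = C i.succ j.succ) : IsClosedForm w := by
  have hz : ∀ k : Fin 4, k ≠ 0 → ∀ i j x, pd k (fun y => w y i j) x = 0 := by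
    intro k hk i j x
    exact pd_zero (hw.1.1 i j) (fun x y hxy => by rw [h0 x y hxy]) hk x
  have hc : ∀ i j : Fin 4, i ≠ 0 → j ≠ 0 → ∀ k x, pd k (fun y => w y i j) x = 0 := by
    intro i j hi hj k x
    obtain ⟨i, rfl⟩ := Fin.exists_succ_eq.2 hi
    obtain ⟨j, rfl⟩ := Fin.exists_succ_eq.2 hj
    have : (fun y => w y i.succ j.succ) = fun _ => C i.succ j.succ := by
      ext y; exact hC y i j
    rw [this, pd_const]
  have hs : ∀ i j k x, pd k (fun y => w y i j) x = - pd k (fun y => w y j i) x := by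
    intro i j k x
    have : (fun y => w y i j) = fun y => - w y j i := by
      ext y; exact hw.2 y i j
    rw [this]
    simp only [pd]
    rw [fderiv_fun_neg]
    rfl
  have hd : ∀ i k x, pd k (fun y => w y i i) x = 0 := by
    intro i k x
    have := hs i i k x
    linarith
  intro x i j k
  by_cases hi : i = 0
  · subst hi
    by_cases hj : j = 0
    · subst hj
      by_cases hk : k = 0
      · subst hk
        rw [hd, add_zero, add_zero]
      · rw [hz k hk, hs 0 k 0 x]; ring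
    · by_cases hk : k = 0
      · subst hk
        rw [hz j hj, hs 0 j 0 x]; ring
      · rw [hc j k hj hk, hz j hj, hz k hk]; ring
  · by_cases hj : j = 0
    · subst hj
      by_cases hk : k = 0
      · subst hk
        rw [hz i hi, hs 0 i 0 x]; ring
      · rw [hz i hi, hc k i hk hi, hz k hk]; ring
    · by_cases hk : k = 0
      · subst hk
        rw [hz i hi, hz j hj, hc i j hi hj]; ring
      · rw [hz i hi, hz j hj, hz k hk]; ring

theorem exists_sign {f : (Fin 4 → ℝ) → ℝ} (hf : Continuous f) (h : ∀ x, f x ≠ 0) :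
    ∃ s : ℝ, s ≠ 0 ∧ ∀ x, 0 < s * f x := by
  by_cases h0 : 0 < f 0
  · refine ⟨1, one_ne_zero, fun x => ?_⟩
    rw [one_mul]
    by_contra hx
    have hx' : f x < 0 := lt_of_le_of_ne (not_lt.1 hx) (h x)
    obtain ⟨z, hz⟩ := mem_range_of_exists_le_of_exists_ge hf ⟨x, hx'.le⟩ ⟨0, h0.le⟩
    exact h z hz
  · refine ⟨-1, by norm_num, fun x => ?_⟩
    have h0' : f 0 < 0 := lt_of_le_of_ne (not_lt.1 h0) (h 0)
    by_contra hx
    have hx' : 0 < f x := lt_of_le_of_ne (by linarith) (h x).symm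
    obtain ⟨z, hz⟩ := mem_range_of_exists_le_of_exists_ge hf ⟨0, h0'.le⟩ ⟨x, hx'.le⟩
    exact h z hz

theorem exists_compatible {J : Field} (hJ : IsAlmostComplex J) (hT : TorusInvariant J)
    {b : Fin 4 → ℝ} (hb : b 0 = 0) (hp : ∀ x, pp (J x) b ≠ 0) :
    ∃ w : Field, IsTwoForm w ∧ TorusInvariant w ∧ IsClosedForm w ∧ Tames w J ∧ Invariant w J := by
  obtain ⟨s, hs0, hs⟩ := exists_sign (smooth_kap hJ.1.1 b).continuous
    (fun x => kap_ne (hJ.2 x) hb (hp x))
  have h2 : IsTwoForm (fun x => Om (J x) b s) := by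
    refine ⟨⟨fun i j => smooth_Om hJ.1.1 b (fun x => (hs x).ne') i j, fun x k => ?_⟩,
      fun x i j => Om_skew (J x) b s i j⟩
    simp only [hJ.1.2]
  have h3 : TorusInvariant (fun x => Om (J x) b s) := fun x y hxy => by
    simp only [hT x y hxy]
  refine ⟨fun x => Om (J x) b s, h2, h3, ?_, fun x v hv => Om_pos (hJ.2 x) (hp x) (hs x) hv,
    fun x u v => Om_inv (hJ.2 x) b s u v⟩
  exact closed_of_fib h2 h3 (C := fun i j => (s * (b 1 ^ 2 + b 2 ^ 2 + b 3 ^ 2))⁻¹ * cr b i j)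
    (fun x i j => Om_fib (hJ.2 x) hb (hp x) hs0 i j)

/-! ## From a taming form to `b` -/

theorem exists_b {w J : Field} (hJ : IsAlmostComplex J) (hT : TorusInvariant J)
    (hw : IsTwoForm w) (hc : IsClosedForm w) (ht : Tames w J) :
    ∃ b : Fin 4 → ℝ, b 0 = 0 ∧ ∀ x, pp (J x) b ≠ 0 := by
  have hconst : ∀ i j : Fin 4, i ≠ 0 → j ≠ 0 → i ≠ j → ∀ s t : ℝ, avg w i j t = avg w i j s := by
    intro i j hi hj hij s t
    rcases le_total s t with h | h
    · exact avg_const hw hc hi hj hij h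
    · exact (avg_const hw hc hi hj hij h).symm
  refine ⟨![0, avg w 2 3 0, avg w 3 1 0, avg w 1 2 0], rfl, fun x hx => ?_⟩
  set b : Fin 4 → ℝ := ![0, avg w 2 3 0, avg w 3 1 0, avg w 1 2 0] with hbdef
  obtain ⟨v, hv, hv0, hJv⟩ := exists_w (J x)
  set u : Fin 4 → ℝ := J x *ᵥ v with hu
  have hcont : ∀ i j : Fin 4, Continuous (fun y : Fin 3 → ℝ => w (Fin.cons (x 0) y) i j) := by
    intro i j
    have h1 : Continuous (fun y : Fin 3 → ℝ => (Fin.cons (x 0) y : Fin 4 → ℝ)) := by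
      refine continuous_pi fun k => ?_
      refine Fin.cases ?_ (fun l => ?_) k
      · simpa using continuous_const
      · simpa using continuous_apply l
    exact (hw.1.1 i j).continuous.comp h1
  have hint : ∀ i j : Fin 4, IntegrableOn (fun y : Fin 3 → ℝ => w (Fin.cons (x 0) y) i j)
      (Icc (0 : Fin 3 → ℝ) 1) := fun i j =>
    (hcont i j).continuousOn.integrableOn_compact isCompact_Icc
  -- the integral of the value on `v`, `J v`
  have hI : 0 < ∫ y in Icc (0 : Fin 3 → ℝ) 1, val (w (Fin.cons (x 0) y)) v u := by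
    have hpos : ∀ y : Fin 3 → ℝ, 0 < val (w (Fin.cons (x 0) y)) v u := by
      intro y
      have hJ' : J x = J (Fin.cons (x 0) y) := hT _ _ (by simp)
      have := ht (Fin.cons (x 0) y) v hv
      rwa [← hJ'] at this
    have hval : Continuous (fun y : Fin 3 → ℝ => val (w (Fin.cons (x 0) y)) v u) := by
      simp only [val, dotProduct, mulVec]
      exact continuous_finsetSum _ fun i _ => continuous_const.mul
        (continuous_finsetSum _ fun j _ => (hcont i j).mul continuous_const)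
    rw [setIntegral_pos_iff_support_of_nonneg_ae]
    · have : Function.support (fun y : Fin 3 → ℝ => val (w (Fin.cons (x 0) y)) v u) = univ := by
        ext y
        simp [(hpos y).ne']
      rw [this, univ_inter, Real.volume_Icc_pi]
      simp
    · exact Filter.Eventually.of_forall fun y => (hpos y).le
    · exact hval.continuousOn.integrableOn_compact isCompact_Icc
  have hI2 : ∫ y in Icc (0 : Fin 3 → ℝ) 1, val (w (Fin.cons (x 0) y)) v u = val (cr b) v u := by
    have hsk : ∀ y : Fin 3 → ℝ, val (w (Fin.cons (x 0) y)) v u =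
        (v 1 * u 2 - v 2 * u 1) * w (Fin.cons (x 0) y) 1 2 +
        (v 2 * u 3 - v 3 * u 2) * w (Fin.cons (x 0) y) 2 3 +
        (v 3 * u 1 - v 1 * u 3) * w (Fin.cons (x 0) y) 3 1 := by
      intro y
      have a11 := hw.2 (Fin.cons (x 0) y) 1 1
      have a22 := hw.2 (Fin.cons (x 0) y) 2 2
      have a33 := hw.2 (Fin.cons (x 0) y) 3 3
      have a21 := hw.2 (Fin.cons (x 0) y) 2 1
      have a32 := hw.2 (Fin.cons (x 0) y) 3 2
      have a13 := hw.2 (Fin.cons (x 0) y) 1 3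
      have hu0 : u 0 = 0 := hJv
      simp only [val, dotProduct, mulVec, Fin.sum_univ_four, hv0, hu0]
      generalize w (Fin.cons (x 0) y) = A at *
      linear_combination (v 2 * u 1) * a21 + (v 3 * u 2) * a32 + (v 1 * u 3) * a13 +
        (v 1 * u 1 / 2) * a11 + (v 2 * u 2 / 2) * a22 + (v 3 * u 3 / 2) * a33
    simp only [hsk]
    rw [integral_add, integral_add, integral_const_mul, integral_const_mul, integral_const_mul]
    · have e1 : ∫ y in Icc (0 : Fin 3 → ℝ) 1, w (Fin.cons (x 0) y) 1 2 = avg w 1 2 0 :=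
        hconst 1 2 (by decide) (by decide) (by decide) 0 (x 0)
      have e2 : ∫ y in Icc (0 : Fin 3 → ℝ) 1, w (Fin.cons (x 0) y) 2 3 = avg w 2 3 0 :=
        hconst 2 3 (by decide) (by decide) (by decide) 0 (x 0)
      have e3 : ∫ y in Icc (0 : Fin 3 → ℝ) 1, w (Fin.cons (x 0) y) 3 1 = avg w 3 1 0 :=
        hconst 3 1 (by decide) (by decide) (by decide) 0 (x 0)
      rw [e1, e2, e3]
      simp [val, dotProduct, mulVec, Fin.sum_univ_four, cr, hbdef]
      ring
    · exact (hint 1 2).const_mul _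
    · exact (hint 2 3).const_mul _
    · exact ((hint 1 2).const_mul _).add ((hint 2 3).const_mul _)
    · exact (hint 3 1).const_mul _
  rw [hI2] at hI
  -- algebra
  have hb0 : b 0 = 0 := rfl
  have hu0 : u 0 = 0 := hJv
  have q1 : v 1 * J x 0 1 + v 2 * J x 0 2 + v 3 * J x 0 3 = 0 := by
    have h1 : (J x *ᵥ v) 0 = 0 := hJv
    simp only [mulVec, dotProduct, Fin.sum_univ_four, hv0] at h1
    linarith
  have q2 : u 1 * J x 0 1 + u 2 * J x 0 2 + u 3 * J x 0 3 = 0 := by
    have h1 : (J x *ᵥ u) 0 = 0 := by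
      rw [hu, JJ (hJ.2 x)]
      simp [hv0]
    simp only [mulVec, dotProduct, Fin.sum_univ_four, hu0] at h1
    linarith
  have q3 : b 1 * J x 0 1 + b 2 * J x 0 2 + b 3 * J x 0 3 = 0 := by
    have h1 : (J x *ᵥ b) 0 = 0 := hx
    simp only [mulVec, dotProduct, Fin.sum_univ_four, hb0] at h1
    linarith
  have hval : val (cr b) v u = (v 1 * u 2 - v 2 * u 1) * b 3 + (v 2 * u 3 - v 3 * u 2) * b 1 +
      (v 3 * u 1 - v 1 * u 3) * b 2 := by
    have c11 : cr b 1 1 = 0 := rfl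
    have c12 : cr b 1 2 = b 3 := rfl
    have c13 : cr b 1 3 = -b 2 := rfl
    have c21 : cr b 2 1 = -b 3 := rfl
    have c22 : cr b 2 2 = 0 := rfl
    have c23 : cr b 2 3 = b 1 := rfl
    have c31 : cr b 3 1 = b 2 := rfl
    have c32 : cr b 3 2 = -b 1 := rfl
    have c33 : cr b 3 3 = 0 := rfl
    simp only [val, dotProduct, mulVec, Fin.sum_univ_four, hv0, hu0, c11, c12, c13, c21, c22, c23,
      c31, c32, c33]
    ring
  have hkey : (J x 0 1 ^ 2 + J x 0 2 ^ 2 + J x 0 3 ^ 2) * val (cr b) v u = 0 := by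
    rw [hval]
    generalize J x 0 1 = p1 at *
    generalize J x 0 2 = p2 at *
    generalize J x 0 3 = p3 at *
    linear_combination ((v 2 * u 3 - v 3 * u 2) * p1 + (v 3 * u 1 - v 1 * u 3) * p2 +
      (v 1 * u 2 - v 2 * u 1) * p3) * q3 +
      (b 1 * (p2 * u 3 - p3 * u 2) + b 2 * (p3 * u 1 - p1 * u 3) + b 3 * (p1 * u 2 - p2 * u 1)) * q1 -
      (b 1 * (p2 * v 3 - p3 * v 2) + b 2 * (p3 * v 1 - p1 * v 3) + b 3 * (p1 * v 2 - p2 * v 1)) * q2
  have hphi : J x 0 1 ^ 2 + J x 0 2 ^ 2 + J x 0 3 ^ 2 = 0 :=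
    (mul_eq_zero.1 hkey).resolve_right hI.ne'
  have h1 : J x 0 1 = 0 := by
    nlinarith [sq_nonneg (J x 0 1), sq_nonneg (J x 0 2), sq_nonneg (J x 0 3)]
  have h2 : J x 0 2 = 0 := by
    nlinarith [sq_nonneg (J x 0 1), sq_nonneg (J x 0 2), sq_nonneg (J x 0 3)]
  have h3 : J x 0 3 = 0 := by
    nlinarith [sq_nonneg (J x 0 1), sq_nonneg (J x 0 2), sq_nonneg (J x 0 3)]
  have h4 : (J x * J x) 0 0 = -1 := by rw [hJ.2 x]; simp
  rw [Matrix.mul_apply, Fin.sum_univ_four, h1, h2, h3] at h4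
  nlinarith [sq_nonneg (J x 0 0)]

end Vale.Agent.P204
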